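import Vale.Agent.P139Z.OCalc

/-! Tools for the mass estimate: integrability, the Hardy chain, the bound for the sources. -/

open Set Filter Topology MeasureTheory Complex
open scoped NNReal ENNReal ComplexConjugate ContDiff

namespace Vale.Agent.P139Z.ExtE

theorem cdo (j : ℕ) : ∀ (k : ℕ) {F : ℝ → ℂ}, ContDiffOn ℝ (j + k : ℕ) F (Ioi 0) →
    ContDiffOn ℝ k (iteratedDeriv j F) (Ioi 0) := by
  induction j with
  | zero => intro k F h; simpa using h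
  | succ j ih =>
    intro k F h
    rw [iteratedDeriv_succ]
    refine (ih (k + 1) (by rwa [show j + (k + 1) = j + 1 + k by omega])).deriv_of_isOpen
      isOpen_Ioi ?_
    exact_mod_cast le_rfl

theorem cda {F : ℝ → ℂ} (h : ContDiffOn ℝ 30 F (Ioi 0)) {j k : ℕ} (hjk : j + k ≤ 30) {x : ℝ}
    (hx : 0 < x) : ContDiffAt ℝ k (iteratedDeriv j F) x :=
  (cdo j k (h.of_le (by exact_mod_cast hjk))).contDiffAt (Ioi_mem_nhds hx)

theorem hda {F : ℝ → ℂ} (h : ContDiffOn ℝ 30 F (Ioi 0)) {j : ℕ} (hj : j + 1 ≤ 30) {x : ℝ}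
    (hx : 0 < x) : HasDerivAt (iteratedDeriv j F) (iteratedDeriv (j + 1) F x) x := by
  rw [iteratedDeriv_succ]
  exact ((cda h hj hx).differentiableAt (by simp)).hasDerivAt

theorem cont {F : ℝ → ℂ} (h : ContDiffOn ℝ 30 F (Ioi 0)) {j : ℕ} (hj : j ≤ 30) {x : ℝ}
    (hx : 0 < x) : ContinuousAt (iteratedDeriv j F) x :=
  (cda h (k := 0) hj hx).continuousAt

theorem wbd {F : ℝ → ℂ} {l : ℕ} (hD : Decay ((l : ℝ) / 2) F) {j : ℕ} (hj : j ≤ 10) :
    ∃ C : ℝ, ∀ (p x : ℝ), 1 ≤ x →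
      x ^ p * ‖iteratedDeriv j F x‖ ^ 2 ≤ C * x ^ (p - l - 2 * j) := by
  obtain ⟨C, hC⟩ := hD
  refine ⟨C ^ 2, fun p x hx => ?_⟩
  have hx0 : 0 < x := by linarith
  have h1 : ‖iteratedDeriv j F x‖ ^ 2 ≤ (C * x ^ (-((l : ℝ) / 2 + j))) ^ 2 := by
    gcongr
    exact hC j hj x hx
  refine (mul_le_mul_of_nonneg_left h1 (Real.rpow_nonneg hx0.le _)).trans (le_of_eq ?_)
  rw [mul_pow, ← Real.rpow_natCast (x ^ _), ← Real.rpow_mul hx0.le, mul_left_comm,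
    ← Real.rpow_add hx0]
  congr 2
  push_cast
  ring

theorem intg {F : ℝ → ℂ} (h : ContDiffOn ℝ 30 F (Ioi 0)) {l : ℕ} (hD : Decay ((l : ℝ) / 2) F)
    {j : ℕ} (hj : j ≤ 10) {p a : ℝ} (ha : 1 ≤ a) (hp : p - l - 2 * j < -1) :
    IntegrableOn (fun x : ℝ => x ^ p * ‖iteratedDeriv j F x‖ ^ 2) (Ioi a) := by
  obtain ⟨C, hC⟩ := wbd hD hj
  have ha0 : 0 < a := by linarith
  refine ((integrableOn_Ioi_rpow_of_lt hp ha0).const_mul C).mono' ?_ ?_
  · refine ContinuousOn.aestronglyMeasurable (fun x hx => ContinuousAt.continuousWithinAt ?_)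
      measurableSet_Ioi
    have hx0 : 0 < x := ha0.trans hx
    exact (Real.continuousAt_rpow_const x p (Or.inl hx0.ne')).mul
      ((cont h (by omega) hx0).norm.pow 2)
  · refine (ae_restrict_iff' measurableSet_Ioi).2 (Eventually.of_forall fun x hx => ?_)
    have hx0 : 0 < x := ha0.trans hx
    rw [Real.norm_of_nonneg (by positivity)]
    exact hC p x (ha.trans (le_of_lt hx))

theorem tend {F : ℝ → ℂ} {l : ℕ} (hD : Decay ((l : ℝ) / 2) F) {j : ℕ} (hj : j ≤ 10) {p : ℝ}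
    (hp : p - l - 2 * j < 0) :
    Tendsto (fun x : ℝ => x ^ p * ‖iteratedDeriv j F x‖ ^ 2) atTop (𝓝 0) := by
  obtain ⟨C, hC⟩ := wbd hD hj
  have h1 := (tendsto_rpow_neg_atTop (neg_pos.2 hp)).const_mul C
  rw [neg_neg, mul_zero] at h1
  refine squeeze_zero' ?_ ?_ h1
  · filter_upwards [eventually_ge_atTop 1] with x hx
    have : 0 < x := by linarith
    positivity
  · filter_upwards [eventually_ge_atTop 1] with x hx using hC p x hx

theorem int_mono {u : ℝ → ℝ} (hu : ∀ x, 0 ≤ u x) {p q a : ℝ} (ha : 1 ≤ a) (hpq : p ≤ q)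
    (hq : IntegrableOn (fun x : ℝ => x ^ q * u x) (Ioi a)) :
    ∫ x in Ioi a, x ^ p * u x ≤ ∫ x in Ioi a, x ^ q * u x := by
  refine integral_mono_of_nonneg ?_ hq ?_
  · refine (ae_restrict_iff' measurableSet_Ioi).2 (Eventually.of_forall fun x hx => ?_)
    have hx0 : 0 < x := by linarith [mem_Ioi.1 hx]
    exact mul_nonneg (Real.rpow_nonneg hx0.le _) (hu x)
  · refine (ae_restrict_iff' measurableSet_Ioi).2 (Eventually.of_forall fun x hx => ?_)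
    exact mul_le_mul_of_nonneg_right
      (Real.rpow_le_rpow_of_exponent_le (ha.trans (le_of_lt hx)) hpq) (hu x)

theorem int_nonneg {u : ℝ → ℝ} (hu : ∀ x, 0 ≤ u x) (p : ℝ) {a : ℝ} (ha : 1 ≤ a) :
    0 ≤ ∫ x in Ioi a, x ^ p * u x :=
  setIntegral_nonneg measurableSet_Ioi fun x hx =>
    mul_nonneg (Real.rpow_nonneg (by linarith [mem_Ioi.1 hx]) _) (hu x)

theorem hardy_step {F : ℝ → ℂ} (h : ContDiffOn ℝ 30 F (Ioi 0)) {l : ℕ}
    (hD : Decay ((l : ℝ) / 2) F) {i : ℕ} (hi : i ≤ 6) {a : ℝ} (ha : 1 ≤ a) :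
    ∫ x in Ioi a, x ^ ((l : ℝ) - 5 / 2 + 2 * i) * ‖iteratedDeriv i F x‖ ^ 2
      ≤ 16 * (∫ x in Ioi a, x ^ ((l : ℝ) - 5 / 2 + 2 * (i + 1 : ℕ))
        * ‖iteratedDeriv (i + 1) F x‖ ^ 2) + 4 * ‖iteratedDeriv i F a‖ ^ 2 := by
  have ha0 : 0 < a := by linarith
  set p : ℝ := (l : ℝ) - 5 / 2 + 2 * (i + 1 : ℕ) with hp
  have e : (l : ℝ) - 5 / 2 + 2 * i = p - 2 := by
    rw [hp]
    push_cast
    ring
  have hd : ∀ x : ℝ, a ≤ x → HasDerivAt (iteratedDeriv i F) (iteratedDeriv (i + 1) F x) x :=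
    fun x hx => hda h (by omega) (ha0.trans_le hx)
  have hc : ContinuousOn (iteratedDeriv (i + 1) F) (Ici a) := fun x hx =>
    (cont h (by omega) (ha0.trans_le hx)).continuousWithinAt
  have hI : IntegrableOn (fun x : ℝ => x ^ p * ‖iteratedDeriv (i + 1) F x‖ ^ 2) (Ioi a) :=
    intg h hD (by omega) ha (by rw [hp]; linarith)
  have h0 : 0 ≤ ∫ x in Ioi a, x ^ p * ‖iteratedDeriv (i + 1) F x‖ ^ 2 :=
    int_nonneg (fun _ => sq_nonneg _) _ ha
  rw [e]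
  rcases le_or_gt 2 (l + 2 * i) with h2 | h2
  · have h3 : (2 : ℝ) ≤ l + 2 * i := by exact_mod_cast h2
    have h4 : 1 / 2 ≤ p - 1 := by
      rw [hp]
      push_cast
      linarith
    refine (hardy_right ha0 (by linarith) hd hc hI (tend hD (by omega) ?_)).2.trans ?_
    · rw [hp]
      push_cast
      linarith
    · refine le_add_of_le_of_nonneg (mul_le_mul_of_nonneg_right ?_ h0) (by positivity)
      rw [div_le_iff₀ (by positivity)]
      nlinarith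
  · have h3 : (l : ℝ) + 2 * i ≤ 1 := by exact_mod_cast Nat.lt_succ_iff.1 h2
    have h4 : 1 / 2 ≤ 1 - p := by
      rw [hp]
      push_cast
      linarith
    refine (hardy_left ha0 (by linarith) hd hc hI).2.trans (add_le_add
      (mul_le_mul_of_nonneg_right ?_ h0) (mul_le_mul ?_ ?_ (by positivity) (by norm_num)))
    · rw [div_le_iff₀ (by positivity)]
      nlinarith
    · rw [div_le_iff₀ (by positivity)]
      linarith
    · exact mul_le_of_le_one_left (sq_nonneg _)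
        (Real.rpow_le_one_of_one_le_of_nonpos ha (by linarith))

theorem hardy_chain {F : ℝ → ℂ} (h : ContDiffOn ℝ 30 F (Ioi 0)) {l : ℕ}
    (hD : Decay ((l : ℝ) / 2) F) {a : ℝ} (ha : 1 ≤ a) {i : ℕ} (hi : i ≤ 7) :
    ∫ x in Ioi a, x ^ ((l : ℝ) - 4 + 2 * i) * ‖iteratedDeriv i F x‖ ^ 2
      ≤ 20 ^ 7 * ((∫ x in Ioi a, x ^ ((l : ℝ) + 12) * ‖iteratedDeriv 7 F x‖ ^ 2)
        + ∑ k ∈ Finset.range 7, ‖iteratedDeriv k F a‖ ^ 2) := by
  set W := ∫ x in Ioi a, x ^ ((l : ℝ) + 12) * ‖iteratedDeriv 7 F x‖ ^ 2 with hW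
  set b := ∑ k ∈ Finset.range 7, ‖iteratedDeriv k F a‖ ^ 2 with hb
  have hW0 : 0 ≤ W := int_nonneg (fun _ => sq_nonneg _) _ ha
  have hb0 : 0 ≤ b := Finset.sum_nonneg fun _ _ => sq_nonneg _
  have h1 : ∀ k i : ℕ, i + k = 7 →
      ∫ x in Ioi a, x ^ ((l : ℝ) - 5 / 2 + 2 * i) * ‖iteratedDeriv i F x‖ ^ 2 ≤ 20 ^ k * (W + b) := by
    intro k
    induction k with
    | zero =>
      intro i hi
      obtain rfl : i = 7 := hi
      rw [pow_zero, one_mul]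
      refine le_add_of_le_of_nonneg (int_mono (fun _ => sq_nonneg _) ha ?_
        (intg h hD (by omega) ha ?_)) hb0
      · push_cast
        linarith
      · push_cast
        linarith
    | succ k ih =>
      intro i hi
      have h2 := ih (i + 1) (by omega)
      have h3 : ‖iteratedDeriv i F a‖ ^ 2 ≤ b :=
        Finset.single_le_sum (f := fun k => ‖iteratedDeriv k F a‖ ^ 2) (fun _ _ => sq_nonneg _)
          (Finset.mem_range.2 (by omega))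
      have h4 : (1 : ℝ) ≤ 20 ^ k := one_le_pow₀ (by norm_num)
      refine (hardy_step h hD (by omega) ha).trans ?_
      have h5 : b ≤ 20 ^ k * (W + b) :=
        (le_add_of_nonneg_left hW0).trans (le_mul_of_one_le_left (by linarith) h4)
      rw [pow_succ (20 : ℝ) k]
      linarith
  refine (int_mono (fun _ => sq_nonneg _) ha (by linarith)
    (intg h hD (by omega) ha (by linarith))).trans ((h1 (7 - i) i (by omega)).trans ?_)
  exact mul_le_mul_of_nonneg_right (pow_le_pow_right₀ (by norm_num) (by omega)) (by linarith)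

theorem neg_le_integral {a : ℝ} {Φ Φ' φ : ℝ → ℝ} (hd : ∀ x, a ≤ x → HasDerivAt Φ (Φ' x) x)
    (hle : ∀ x, a ≤ x → Φ' x ≤ φ x) (hi : IntegrableOn φ (Ioi a)) (ht : Tendsto Φ atTop (𝓝 0)) :
    -Φ a ≤ ∫ x in Ioi a, φ x := by
  have h1 := ht.sub_const (Φ a)
  rw [zero_sub] at h1
  refine le_of_tendsto_of_tendsto h1 (intervalIntegral_tendsto_integral_Ioi a hi tendsto_id) ?_
  filter_upwards [eventually_ge_atTop a] with b hb
  exact intervalIntegral.sub_le_integral_of_hasDeriv_right_of_le hb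
    (fun x hx => (hd x hx.1).continuousAt.continuousWithinAt)
    (fun x hx => (hd x hx.1.le).hasDerivWithinAt)
    ((integrableOn_Icc_iff_integrableOn_Ioc).2 (hi.mono_set Ioc_subset_Ioi_self))
    fun x hx => hle x hx.1.le

theorem norm_iter_conj (j : ℕ) (H : ℝ → ℂ) (x : ℝ) :
    ‖iteratedDeriv j (fun y => conj (H y)) x‖ = ‖iteratedDeriv j H x‖ := by
  rw [← norm_iteratedFDeriv_eq_norm_iteratedDeriv, ← norm_iteratedFDeriv_eq_norm_iteratedDeriv]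
  exact conjLIE.norm_iteratedFDeriv_comp_left H x j

theorem prod_le {V F : ℝ → ℂ} {j : ℕ} (hj : j ≤ 8) {x ε : ℝ} (hV : ContDiffAt ℝ j V x)
    (hF : ContDiffAt ℝ j F x)
    (hb : ∀ i ≤ 10, ‖iteratedDeriv i V x‖ ≤ ε * x ^ (-(1 + (i : ℝ)))) :
    ‖iteratedDeriv j (fun y => V y * F y) x‖ ≤ ∑ i ∈ Finset.range (j + 1),
      256 * ε * (x ^ (-(1 + ((j : ℝ) - i))) * ‖iteratedDeriv i F x‖) := by
  simp only [mul_comm (V _)]
  rw [iteratedDeriv_fun_mul hF hV]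
  refine norm_sum_le_of_le _ fun i hi => ?_
  have hij : i ≤ j := Nat.lt_succ_iff.1 (Finset.mem_range.1 hi)
  have h1 := hb (j - i) (by omega)
  rw [Nat.cast_sub hij] at h1
  have h2 : (j.choose i : ℝ) ≤ 256 := by
    have h3 : j.choose i ≤ 2 ^ 8 :=
      (Nat.choose_le_two_pow j i).trans (Nat.pow_le_pow_right (by norm_num) hj)
    exact_mod_cast h3
  rw [norm_mul, norm_mul, Complex.norm_natCast]
  calc (j.choose i : ℝ) * ‖iteratedDeriv i F x‖ * ‖iteratedDeriv (j - i) V x‖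
      ≤ 256 * ‖iteratedDeriv i F x‖ * (ε * x ^ (-(1 + ((j : ℝ) - i)))) := by gcongr
    _ = _ := by ring

theorem src_le {V₁ V₂ F H S : ℝ → ℂ} {j l : ℕ} (hj7 : 7 ≤ j) (hj : j ≤ 8) {x ε M : ℝ} (hx : 1 ≤ x)
    (hε : 0 ≤ ε) (hV₁ : ContDiffAt ℝ j V₁ x) (hV₂ : ContDiffAt ℝ j V₂ x) (hF : ContDiffAt ℝ j F x)
    (hH : ContDiffAt ℝ j H x) (hS : ContDiffAt ℝ j S x)
    (hb : ∀ i ≤ 10, ‖iteratedDeriv i V₁ x‖ ≤ ε * x ^ (-(1 + (i : ℝ))) ∧
      ‖iteratedDeriv i V₂ x‖ ≤ ε * x ^ (-(1 + (i : ℝ))))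
    (hM : ‖iteratedDeriv j S x‖ ≤ M * x ^ (-((l : ℝ) / 2 + j))) :
    x ^ (((l : ℝ) + 5 + j) / 2)
        * ‖iteratedDeriv j (fun y => V₁ y * F y + V₂ y * conj (H y) + S y) x‖
      ≤ 256 * ε * ∑ i ∈ Finset.range (j + 1), x ^ (((l : ℝ) - 4 + 2 * i) / 2)
        * (‖iteratedDeriv i F x‖ + ‖iteratedDeriv i H x‖) + M * x ^ (-1 : ℝ) := by
  have hx0 : 0 < x := by linarith
  have hj7' : (7 : ℝ) ≤ j := by exact_mod_cast hj7
  have hH' : ContDiffAt ℝ j (fun y => conj (H y)) x := conjCLE.contDiff.contDiffAt.comp x hH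
  have hM0 : 0 ≤ M :=
    nonneg_of_mul_nonneg_left ((norm_nonneg _).trans hM) (Real.rpow_pos_of_pos hx0 _)
  rw [iteratedDeriv_fun_add ((hV₁.mul hF).add (hV₂.mul hH')) hS,
    iteratedDeriv_fun_add (hV₁.mul hF) (hV₂.mul hH')]
  have h1 := prod_le hj hV₁ hF fun i hi => (hb i hi).1
  have h2 := prod_le hj hV₂ hH' fun i hi => (hb i hi).2
  simp only [norm_iter_conj] at h2
  have hw : 0 ≤ x ^ (((l : ℝ) + 5 + j) / 2) := Real.rpow_nonneg hx0.le _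
  refine (mul_le_mul_of_nonneg_left ((norm_add_le _ _).trans
    (add_le_add ((norm_add_le _ _).trans (add_le_add h1 h2)) hM)) hw).trans ?_
  rw [mul_add, ← Finset.sum_add_distrib, Finset.mul_sum, Finset.mul_sum]
  refine add_le_add (Finset.sum_le_sum fun i _ => ?_) ?_
  · have h3 : x ^ (((l : ℝ) + 5 + j) / 2) * x ^ (-(1 + ((j : ℝ) - i)))
        ≤ x ^ (((l : ℝ) - 4 + 2 * i) / 2) := by
      rw [← Real.rpow_add hx0]
      exact Real.rpow_le_rpow_of_exponent_le hx (by linarith)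
    calc _ = 256 * ε * ((x ^ (((l : ℝ) + 5 + j) / 2) * x ^ (-(1 + ((j : ℝ) - i))))
          * (‖iteratedDeriv i F x‖ + ‖iteratedDeriv i H x‖)) := by ring
      _ ≤ _ := by gcongr
  · rw [mul_left_comm, ← Real.rpow_add hx0]
    exact mul_le_mul_of_nonneg_left (Real.rpow_le_rpow_of_exponent_le hx (by linarith)) hM0

theorem sq_half {x : ℝ} (hx : 0 < x) (p : ℝ) : (x ^ (p / 2)) ^ 2 = x ^ p := by
  rw [← Real.rpow_natCast, ← Real.rpow_mul hx.le]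
  congr 1
  push_cast
  ring

theorem sq_src {u v : ℕ → ℝ} {j l : ℕ} (hj : j ≤ 8) {x : ℝ} (ε M : ℝ) (hx : 0 < x) :
    2 * (256 * ε * ∑ i ∈ Finset.range (j + 1), x ^ (((l : ℝ) - 4 + 2 * i) / 2) * (u i + v i)
        + M * x ^ (-1 : ℝ)) ^ 2
      ≤ 4718592 * ε ^ 2 * ∑ i ∈ Finset.range (j + 1),
        x ^ ((l : ℝ) - 4 + 2 * i) * (u i ^ 2 + v i ^ 2) + 4 * M ^ 2 * x ^ (-2 : ℝ) := by
  have h1 := sq_sum_le_card_mul_sum_sq (s := Finset.range (j + 1))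
    (f := fun i => x ^ (((l : ℝ) - 4 + 2 * i) / 2) * (u i + v i))
  have h2 : ∑ i ∈ Finset.range (j + 1), (x ^ (((l : ℝ) - 4 + 2 * i) / 2) * (u i + v i)) ^ 2
      ≤ 2 * ∑ i ∈ Finset.range (j + 1), x ^ ((l : ℝ) - 4 + 2 * i) * (u i ^ 2 + v i ^ 2) := by
    rw [Finset.mul_sum]
    refine Finset.sum_le_sum fun i _ => ?_
    rw [mul_pow, sq_half hx, mul_left_comm]
    exact mul_le_mul_of_nonneg_left (by nlinarith [sq_nonneg (u i - v i)])
      (Real.rpow_nonneg hx.le _)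
  have h3 : ((Finset.range (j + 1)).card : ℝ) ≤ 9 := by
    rw [Finset.card_range]
    exact_mod_cast Nat.succ_le_succ hj
  have h4 := h1.trans (mul_le_mul h3 h2 (Finset.sum_nonneg fun _ _ => sq_nonneg _) (by norm_num))
  have h5 : (x ^ (-1 : ℝ)) ^ 2 = x ^ (-2 : ℝ) := by
    rw [← sq_half hx (-2)]
    norm_num
  rw [← h5]
  set s := ∑ i ∈ Finset.range (j + 1), x ^ (((l : ℝ) - 4 + 2 * i) / 2) * (u i + v i)
  set t := ∑ i ∈ Finset.range (j + 1), x ^ ((l : ℝ) - 4 + 2 * i) * (u i ^ 2 + v i ^ 2)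
  nlinarith [sq_nonneg (256 * ε * s - M * x ^ (-1 : ℝ)), mul_le_mul_of_nonneg_left h4 (sq_nonneg ε)]

theorem mass_le {y S : ℂ} {w ν σ : ℝ} (hw : 0 ≤ w) (hν : 1 / 2 ≤ ν) (h : w * ‖S‖ ≤ σ) :
    w ^ 2 * (conj y * S).im - ν * w ^ 2 * ‖y‖ ^ 2 ≤ σ ^ 2 - w ^ 2 * ‖y‖ ^ 2 / 4 := by
  have h1 : (conj y * S).im ≤ ‖y‖ * ‖S‖ := by
    simpa using (le_abs_self _).trans (abs_im_le_norm (conj y * S))
  have h2 : w ^ 2 * (conj y * S).im ≤ w * ‖y‖ * σ := by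
    calc w ^ 2 * (conj y * S).im ≤ w ^ 2 * (‖y‖ * ‖S‖) := by gcongr
      _ = w * ‖y‖ * (w * ‖S‖) := by ring
      _ ≤ _ := by gcongr
  have h3 : 1 / 2 * (w ^ 2 * ‖y‖ ^ 2) ≤ ν * (w ^ 2 * ‖y‖ ^ 2) := by gcongr
  nlinarith [sq_nonneg (σ - w * ‖y‖ / 2)]

end Vale.Agent.P139Z.ExtE
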